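import Vale.Agent.P347.Bdl.B1
import Mathlib.Analysis.Calculus.BumpFunction.Convolution
import Mathlib.Analysis.Calculus.BumpFunction.FiniteDimension

/-! P347, block M3 (helper473), part 1: strongly convex potentials, smoothing of Lipschitz
functions, and the contraction of posterior expectations. -/

open MeasureTheory Filter Module
open scoped ENNReal NNReal ContDiff Convolution

namespace Vale.Agent.P347.I3

variable {E : Type*} [NormedAddCommGroup E] [InnerProductSpace ℝ E] [FiniteDimensional ℝ E]
  [MeasurableSpace E] [BorelSpace E]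

/-- A Lipschitz function is uniformly close to a smooth function with the same Lipschitz
constant. -/
theorem exists_smooth {f : E → ℝ} {L : ℝ} (hL : 0 ≤ L) (hf : ∀ x y, |f x - f y| ≤ L * ‖x - y‖)
    {ε : ℝ} (hε : 0 < ε) :
    ∃ g : E → ℝ, ContDiff ℝ ∞ g ∧ (∀ x y, |g x - g y| ≤ L * ‖x - y‖) ∧ ∀ x, |g x - f x| ≤ ε := by
  have cf : Continuous f := by
    have : LipschitzWith (Real.toNNReal L) f := LipschitzWith.of_dist_le_mul fun x y => by
      rw [Real.coe_toNNReal _ hL, Real.dist_eq, dist_eq_norm]
      exact hf x y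
    exact this.continuous
  set r : ℝ := ε / (L + 1) with hr
  have hL1 : 0 < L + 1 := by linarith
  have hr0 : 0 < r := div_pos hε hL1
  set φ : ContDiffBump (0 : E) := ⟨r / 2, r, half_pos hr0, half_lt_self hr0⟩ with hφ
  set g : E → ℝ := (φ.normed volume ⋆[ContinuousLinearMap.lsmul ℝ ℝ, volume] f) with hg
  have hgx : ∀ x, g x = ∫ t, φ.normed volume t * f (x - t) := fun x => rfl
  have hint : ∀ x, Integrable (fun t => φ.normed volume t * f (x - t)) := fun x => by
    refine Continuous.integrable_of_hasCompactSupport ?_ ?_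
    · exact φ.continuous_normed.mul (cf.comp (continuous_const.sub continuous_id))
    · exact φ.hasCompactSupport_normed.mul_right
  have hn0 : ∀ t, 0 ≤ φ.normed volume t := φ.nonneg_normed
  have hn1 : ∫ t, φ.normed volume t = 1 := φ.integral_normed
  have hni : Integrable (fun t => φ.normed (volume : Measure E) t) := φ.integrable_normed
  refine ⟨g, ?_, fun x y => ?_, fun x => ?_⟩
  · exact φ.hasCompactSupport_normed.contDiff_convolution_left _ φ.contDiff_normed
      cf.locallyIntegrable
  · rw [hgx, hgx, ← integral_sub (hint x) (hint y)]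
    have h1 : ∀ t, ‖φ.normed volume t * f (x - t) - φ.normed volume t * f (y - t)‖ ≤
        (L * ‖x - y‖) * φ.normed volume t := fun t => by
      rw [← mul_sub, norm_mul, Real.norm_eq_abs, abs_of_nonneg (hn0 t), mul_comm,
        Real.norm_eq_abs]
      have h2 := hf (x - t) (y - t)
      rw [sub_sub_sub_cancel_right] at h2
      exact mul_le_mul_of_nonneg_right h2 (hn0 t)
    have h3 := norm_integral_le_of_norm_le (hni.const_mul (L * ‖x - y‖))
      (Eventually.of_forall h1)
    rw [integral_const_mul, hn1, mul_one, Real.norm_eq_abs] at h3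
    exact h3
  · have h := φ.dist_normed_convolution_le (μ := (volume : Measure E)) (g := f) (x₀ := x) (ε := ε)
      cf.aestronglyMeasurable fun y hy => by
        rw [Real.dist_eq]
        refine (hf y x).trans ?_
        have h1 : ‖y - x‖ ≤ r := by
          rw [← dist_eq_norm]
          exact (Metric.mem_ball.1 hy).le
        calc L * ‖y - x‖ ≤ L * r := mul_le_mul_of_nonneg_left h1 hL
          _ ≤ (L + 1) * r := by nlinarith
          _ = ε := by rw [hr]; field_simp
    rw [Real.dist_eq] at h
    exact h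

/-- `1`-strongly convex potentials with a continuous gradient field of polynomial growth. -/
structure SPot (V : E → ℝ) (G : E → E) : Prop where
  grad : ∀ x, HasFDerivAt V (innerSL ℝ (G x)) x
  cont : Continuous G
  pg : PG G
  mono : ∀ x y, ‖x - y‖ ^ 2 ≤ inner ℝ (G x - G y) (x - y)

namespace SPot

variable {V : E → ℝ} {G : E → E}

omit [FiniteDimensional ℝ E] [MeasurableSpace E] [BorelSpace E] in
theorem contV (hV : SPot V G) : Continuous V :=
  continuous_iff_continuousAt.2 fun x => (hV.grad x).continuousAt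

omit [FiniteDimensional ℝ E] [MeasurableSpace E] [BorelSpace E] in
theorem low (hV : SPot V G) (x : E) : 1 / 4 * ‖x‖ ^ 2 - (‖G 0‖ ^ 2 - V 0) ≤ V x := by
  have h1 := tangent_le hV.grad (m := 1) (fun x y => by rw [one_mul]; exact hV.mono x y) x 0
  rw [sub_zero] at h1
  have h2 := (abs_le.1 (abs_real_inner_le_norm (G 0) x)).1
  have h3 := sq_nonneg (‖x‖ - 2 * ‖G 0‖)
  linarith only [h1, h2, h3]

omit [FiniteDimensional ℝ E] [MeasurableSpace E] [BorelSpace E] in
theorem adm (hV : SPot V G) : Adm V := ⟨hV.contV, 1 / 4, by norm_num, _, hV.low⟩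

omit [FiniteDimensional ℝ E] [MeasurableSpace E] [BorelSpace E] in
theorem midSC (hV : SPot V G) : MidSC 1 V := fun x y =>
  midSC_of_mono hV.grad (m := 1) (fun x y => by rw [one_mul]; exact hV.mono x y) x y

omit [FiniteDimensional ℝ E] [MeasurableSpace E] [BorelSpace E] in
/-- The posterior is strongly log-concave with parameter `1 + 1 / s`. -/
theorem post_midSC (hV : SPot V G) {s : ℝ} (hs : 0 < s) (y : E) :
    MidSC (1 + 1 / s) (post V s y) := by
  intro x x'
  have h1 := hV.midSC x x'
  have h2 : ‖(2 : ℝ)⁻¹ • (x + x') - y‖ ^ 2 = (‖x - y‖ ^ 2 + ‖x' - y‖ ^ 2) / 2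
      - ‖x - x'‖ ^ 2 / 4 := by
    have h3 : (2 : ℝ)⁻¹ • (x + x') - y = (2 : ℝ)⁻¹ • ((x - y) + (x' - y)) := by module
    have h4 := parallelogram_law_with_norm ℝ (x - y) (x' - y)
    have h5 : x - y - (x' - y) = x - x' := by abel
    rw [h5] at h4
    rw [h3, norm_smul, mul_pow]
    norm_num
    linarith
  unfold post
  rw [h2]
  have h6 : ((‖x - y‖ ^ 2 + ‖x' - y‖ ^ 2) / 2 - ‖x - x'‖ ^ 2 / 4) / (2 * s)
      = (‖x - y‖ ^ 2 / (2 * s) + ‖x' - y‖ ^ 2 / (2 * s)) / 2 - 1 / s / 8 * ‖x - x'‖ ^ 2 := by
    field_simp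
    ring
  rw [h6]
  linarith only [h1]

omit [FiniteDimensional ℝ E] [MeasurableSpace E] [BorelSpace E] in
theorem post_low (hV : SPot V G) {s : ℝ} (hs : 0 < s) (x y : E) :
    1 / 4 * ‖x‖ ^ 2 - (‖G 0‖ ^ 2 - V 0) ≤ post V s y x := by
  have h1 := hV.low x
  have h2 : 0 ≤ ‖x - y‖ ^ 2 / (2 * s) := by positivity
  unfold post
  linarith only [h1, h2]

omit [FiniteDimensional ℝ E] [MeasurableSpace E] [BorelSpace E] in
theorem post_adm (hV : SPot V G) {s : ℝ} (hs : 0 < s) (y : E) : Adm (post V s y) := by
  have := hV.contV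
  exact ⟨by unfold post; fun_prop, 1 / 4, by norm_num, _, fun x => hV.post_low hs x y⟩

/-- Derivative of posterior expectations along a line of observations. -/
theorem post_hasDerivAt (hV : SPot V G) {s : ℝ} (hs : 0 < s) (y u : E) {f : E → ℝ}
    (cf : Continuous f) (pf : PG f) (t0 : ℝ) :
    HasDerivAt (fun t : ℝ => ∫ x, f x ∂(gibbs (post V s (y + t • u))))
      ((1 / s) * ((∫ x, (inner ℝ x u : ℝ) * f x ∂(gibbs (post V s (y + t0 • u))))
          - (∫ x, (inner ℝ x u : ℝ) ∂(gibbs (post V s (y + t0 • u))))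
            * ∫ x, f x ∂(gibbs (post V s (y + t0 • u))))) t0 := by
  obtain ⟨C, k, hC, hk⟩ := pf.nonneg_bound
  set B : ℝ := ‖y‖ + (|t0| + 1) * ‖u‖ + ‖u‖ with hB
  have hB0 : 0 ≤ B := by positivity
  have bY : ∀ t, |t - t0| < 1 → ‖y + t • u‖ ≤ B := fun t ht => by
    have h1 : |t| ≤ |t0| + 1 := by
      have := abs_sub_abs_le_abs_sub t t0
      linarith
    have h2 : ‖y + t • u‖ ≤ ‖y‖ + |t| * ‖u‖ := by
      refine (norm_add_le _ _).trans ?_
      rw [norm_smul, Real.norm_eq_abs]
    have h3 : |t| * ‖u‖ ≤ (|t0| + 1) * ‖u‖ := mul_le_mul_of_nonneg_right h1 (norm_nonneg _)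
    have h4 := norm_nonneg u
    linarith
  have bU : ‖u‖ ≤ B := by
    have h1 := norm_nonneg y
    have h2 : 0 ≤ (|t0| + 1) * ‖u‖ := by positivity
    linarith
  have cV := hV.contV
  have hY : ∀ t, HasDerivAt (fun t : ℝ => y + t • u) u t := fun t => by
    have := ((hasDerivAt_id t).smul_const u).const_add y
    simpa using this
  have key := gibbs_hasDerivAt (U := fun t => post V s (y + t • u))
    (U' := fun t x => -(inner ℝ (x - (y + t • u)) u) / s) (h := fun _ => f) (h' := fun _ _ => 0)
    (t0 := t0) (r := 1)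
    (a := 1 / 4) (b := ‖G 0‖ ^ 2 - V 0) (C := C + (1 + B) * B / s) (k := k + 1) one_pos
    (by norm_num)
    (fun t ht x => by
      have h1 : HasDerivAt (fun t : ℝ => ‖x - (y + t • u)‖ ^ 2)
          (2 * inner ℝ (x - (y + t • u)) (-u)) t := by
        have := ((hY t).const_sub x).norm_sq
        simpa only [inner_neg_right, mul_neg] using this
      have h2 := (h1.div_const (2 * s)).const_add (V x)
      refine h2.congr_deriv ?_
      rw [inner_neg_right]
      field_simp)
    (fun t _ x => hasDerivAt_const _ _)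
    (fun t ht => by unfold post; fun_prop)
    (fun t ht => by
      have : Continuous fun x : E => (inner ℝ (x - (y + t • u)) u : ℝ) := by fun_prop
      exact (this.neg).div_const s)
    (fun _ _ => cf) (fun _ _ => continuous_const)
    (fun t ht x => hV.post_low hs x _)
    (fun t ht x => by
      have h1 := abs_real_inner_le_norm (x - (y + t • u)) u
      have h2 : ‖x - (y + t • u)‖ ≤ ‖x‖ + B := (norm_sub_le _ _).trans (by gcongr; exact bY t ht)
      have h3 : |-(inner ℝ (x - (y + t • u)) u) / s| ≤ (‖x‖ + B) * B / s := by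
        rw [abs_div, abs_neg, abs_of_pos hs]
        gcongr
        exact h1.trans (mul_le_mul h2 bU (norm_nonneg _) (by positivity))
      refine h3.trans ?_
      have hx := norm_nonneg x
      have h4 : (‖x‖ + B) * B / s ≤ ((1 + B) * B / s) * (1 + ‖x‖) := by
        have : (‖x‖ + B) * B ≤ (1 + B) * B * (1 + ‖x‖) := by
          have h5 : ‖x‖ + B ≤ (1 + B) * (1 + ‖x‖) := by nlinarith
          calc (‖x‖ + B) * B ≤ ((1 + B) * (1 + ‖x‖)) * B := mul_le_mul_of_nonneg_right h5 hB0
            _ = _ := by ring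
        calc (‖x‖ + B) * B / s ≤ ((1 + B) * B * (1 + ‖x‖)) / s := by gcongr
          _ = _ := by ring
      refine h4.trans ?_
      have h5 := one_le_one_add_norm x
      have h6 : (1 + ‖x‖) ≤ (1 + ‖x‖) ^ (k + 1) := by
        calc (1 + ‖x‖) = (1 + ‖x‖) ^ 1 := (pow_one _).symm
          _ ≤ _ := pow_le_pow_right₀ h5 (by omega)
      have h7 : 0 ≤ (1 + B) * B / s := by positivity
      exact mul_le_mul (by linarith only [hC]) h6 (by linarith only [h5]) (by positivity))
    (fun t ht x => (hk x).trans (by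
      have h5 := one_le_one_add_norm x
      have h6 : 0 ≤ (1 + B) * B / s := by positivity
      gcongr
      · linarith only [h6]
      · omega))
    (fun t ht x => by
      rw [norm_zero]
      have h5 := one_le_one_add_norm x
      have h6 : 0 ≤ (1 + B) * B / s := by positivity
      positivity)
  refine key.congr_deriv ?_
  have hA := hV.post_adm hs (y + t0 • u)
  have := hA.isProb
  have ih : Integrable f (gibbs (post V s (y + t0 • u))) :=
    hA.integrable pf cf.aestronglyMeasurable
  have i1 : Integrable (fun x : E => (inner ℝ x u : ℝ)) (gibbs (post V s (y + t0 • u))) :=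
    hA.integrable (PG.id.inner (PG.const _)) (Continuous.aestronglyMeasurable (by fun_prop))
  have i2 : Integrable (fun x : E => (inner ℝ x u : ℝ) * f x)
      (gibbs (post V s (y + t0 • u))) :=
    hA.integrable ((PG.id.inner (PG.const _)).mul pf)
      (Continuous.aestronglyMeasurable (by fun_prop))
  have e1 : ∫ x, (-(inner ℝ (x - (y + t0 • u)) u) / s) • f x ∂(gibbs (post V s (y + t0 • u)))
      = -(1 / s) * (∫ x, (inner ℝ x u : ℝ) * f x ∂(gibbs (post V s (y + t0 • u))))
        + (inner ℝ (y + t0 • u) u / s) * ∫ x, f x ∂(gibbs (post V s (y + t0 • u))) := by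
    rw [← integral_const_mul, ← integral_const_mul, ← integral_add (i2.const_mul _)
      (ih.const_mul _)]
    refine integral_congr_ae (Eventually.of_forall fun x => ?_)
    simp only [inner_sub_left, smul_eq_mul]
    ring
  have e2 : ∫ x, -(inner ℝ (x - (y + t0 • u)) u) / s ∂(gibbs (post V s (y + t0 • u)))
      = -(1 / s) * (∫ x, (inner ℝ x u : ℝ) ∂(gibbs (post V s (y + t0 • u))))
        + (inner ℝ (y + t0 • u) u / s) := by
    have : ∀ x, -(inner ℝ (x - (y + t0 • u)) u) / s = -(1 / s) * (inner ℝ x u : ℝ)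
        + (inner ℝ (y + t0 • u) u / s) := fun x => by
      rw [inner_sub_left]; ring
    simp_rw [this]
    rw [integral_add (i1.const_mul _) (integrable_const _), integral_const_mul, integral_const,
      probReal_univ, one_smul]
  rw [e1, e2, integral_zero, smul_eq_mul]
  ring

/-- Variance of a linear form under the posterior. -/
theorem var_lin (hV : SPot V G) {s : ℝ} (hs : 0 < s) (y u : E) :
    (∫ x, (inner ℝ x u : ℝ) ^ 2 ∂(gibbs (post V s y)))
      - (∫ x, (inner ℝ x u : ℝ) ∂(gibbs (post V s y))) ^ 2 ≤ 1 / (1 + 1 / s) * ‖u‖ ^ 2 := by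
  have hA := hV.post_adm hs y
  have := hA.isProb
  have h1 := poincare (m := 1 + 1 / s) (by positivity) hA (hV.post_midSC hs y)
    (f := fun x => (inner ℝ x u : ℝ)) (g := fun _ => u)
    (fun x => by
      have h2 : (fun x : E => (inner ℝ x u : ℝ)) = fun x => innerSL ℝ u x := by
        funext x; rw [innerSL_apply_apply, real_inner_comm]
      rw [h2]
      exact (innerSL ℝ u).hasFDerivAt) continuous_const (PG.id.inner (PG.const _)) (PG.const _)
  rw [integral_const, probReal_univ, one_smul] at h1
  exact h1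

/-- Variance of a smooth Lipschitz function under the posterior. -/
theorem var_lip (hV : SPot V G) {s : ℝ} (hs : 0 < s) (y : E) {g : E → ℝ} (cg : ContDiff ℝ ∞ g)
    {L : ℝ} (hL : 0 ≤ L) (hg : ∀ x y, |g x - g y| ≤ L * ‖x - y‖) :
    (∫ x, g x ^ 2 ∂(gibbs (post V s y))) - (∫ x, g x ∂(gibbs (post V s y))) ^ 2
      ≤ 1 / (1 + 1 / s) * L ^ 2 := by
  have hA := hV.post_adm hs y
  have := hA.isProb
  have lip : LipschitzWith (Real.toNNReal L) g := LipschitzWith.of_dist_le_mul fun x y => by
    rw [Real.coe_toNNReal _ hL, Real.dist_eq, dist_eq_norm]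
    exact hg x y
  set D : E → E := fun x => (InnerProductSpace.toDual ℝ E).symm (fderiv ℝ g x) with hD
  have cD : Continuous D :=
    (InnerProductSpace.toDual ℝ E).symm.continuous.comp (cg.continuous_fderiv (by simp))
  have hD' : ∀ x, HasFDerivAt g (innerSL ℝ (D x)) x := fun x => by
    have h1 : innerSL ℝ (D x) = fderiv ℝ g x := by
      ext v
      rw [innerSL_apply_apply, hD]
      exact InnerProductSpace.toDual_symm_apply
    rw [h1]
    exact (cg.differentiable (by simp) x).hasFDerivAt
  have nD : ∀ x, ‖D x‖ ≤ L := fun x => by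
    rw [hD]
    simp only [LinearIsometryEquiv.norm_map]
    have := norm_fderiv_le_of_lipschitz ℝ lip (x₀ := x)
    rwa [Real.coe_toNNReal _ hL] at this
  have pD : PG D := ⟨L, 0, fun x => by rw [pow_zero, mul_one]; exact nD x⟩
  have pg : PG g := PG.of_lip (L := L) fun x y => hg x y
  have h1 := poincare (m := 1 + 1 / s) (by positivity) hA (hV.post_midSC hs y) hD' cD pg pD
  refine h1.trans (mul_le_mul_of_nonneg_left ?_ (by positivity))
  have h2 : ∫ x, ‖D x‖ ^ 2 ∂(gibbs (post V s y)) ≤ ∫ _, L ^ 2 ∂(gibbs (post V s y)) :=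
    integral_mono (hA.integrable (pD.norm.pow 2) (Continuous.aestronglyMeasurable (by fun_prop)))
      (integrable_const _) fun x => pow_le_pow_left₀ (norm_nonneg _) (nD x) 2
  rwa [integral_const, probReal_univ, one_smul] at h2

theorem contr_smooth (hV : SPot V G) {s : ℝ} (hs : 0 < s) {g : E → ℝ} (cg : ContDiff ℝ ∞ g)
    {L : ℝ} (hL : 0 ≤ L) (hg : ∀ x y, |g x - g y| ≤ L * ‖x - y‖) (y y' : E) :
    |∫ x, g x ∂(gibbs (post V s y')) - ∫ x, g x ∂(gibbs (post V s y))| ≤
      L * (1 + s)⁻¹ * ‖y' - y‖ := by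
  set u := y' - y with hu
  have cg0 : Continuous g := cg.continuous
  have pg : PG g := PG.of_lip (L := L) fun x y => hg x y
  have hd := hV.post_hasDerivAt hs y u cg0 pg
  have hm := norm_image_sub_le_of_norm_deriv_le_segment_01'
    (f := fun t : ℝ => ∫ x, g x ∂(gibbs (post V s (y + t • u)))) (C := L * (1 + s)⁻¹ * ‖u‖)
    (fun t _ => (hd t).hasDerivWithinAt) (fun t _ => by
      have hA := hV.post_adm hs (y + t • u)
      have := hA.isProb
      have i1 : Integrable (fun x : E => (inner ℝ x u : ℝ)) (gibbs (post V s (y + t • u))) :=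
        hA.integrable (PG.id.inner (PG.const _)) (Continuous.aestronglyMeasurable (by fun_prop))
      have i2 : Integrable g (gibbs (post V s (y + t • u))) :=
        hA.integrable pg cg0.aestronglyMeasurable
      have i3 : Integrable (fun x : E => (inner ℝ x u : ℝ) ^ 2)
          (gibbs (post V s (y + t • u))) :=
        hA.integrable ((PG.id.inner (PG.const _)).pow 2)
          (Continuous.aestronglyMeasurable (by fun_prop))
      have i4 : Integrable (fun x : E => g x ^ 2) (gibbs (post V s (y + t • u))) :=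
        hA.integrable (pg.pow 2) (Continuous.aestronglyMeasurable (by fun_prop))
      have i5 : Integrable (fun x : E => (inner ℝ x u : ℝ) * g x)
          (gibbs (post V s (y + t • u))) :=
        hA.integrable ((PG.id.inner (PG.const _)).mul pg)
          (Continuous.aestronglyMeasurable (by fun_prop))
      have h1 := cov_sq_le i1 i2 i3 i4 i5
      have h2 := hV.var_lin hs (y + t • u) u
      have h3 := hV.var_lip hs (y + t • u) cg hL hg
      have h4 : 0 ≤ ∫ x, g x ^ 2 ∂(gibbs (post V s (y + t • u))) -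
          (∫ x, g x ∂(gibbs (post V s (y + t • u)))) ^ 2 := var_nonneg i2 i4
      have h5 : 0 ≤ 1 / (1 + 1 / s) * ‖u‖ ^ 2 := by positivity
      have h6 := h1.trans (mul_le_mul h2 h3 h4 h5)
      have h7 : 1 / (1 + 1 / s) * ‖u‖ ^ 2 * (1 / (1 + 1 / s) * L ^ 2) =
          (s * (L * (1 + s)⁻¹ * ‖u‖)) ^ 2 := by
        field_simp
        ring
      rw [h7] at h6
      have h8 := abs_le_of_sq_le_sq h6 (by positivity)
      rw [Real.norm_eq_abs, abs_mul, abs_of_pos (by positivity : 0 < 1 / s)]
      rw [one_div, inv_mul_le_iff₀ hs]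
      exact h8)
  simp only [one_smul, zero_smul, add_zero] at hm
  rw [Real.norm_eq_abs] at hm
  have e : y + u = y' := by rw [hu]; abel
  rwa [e] at hm

/-- Posterior expectations of Lipschitz functions: contraction by `1 / (1 + s)`. -/
theorem contr (hV : SPot V G) {s : ℝ} (hs : 0 < s) {f : E → ℝ}
    {L : ℝ} (hL : 0 ≤ L) (hf : ∀ x y, |f x - f y| ≤ L * ‖x - y‖) (y y' : E) :
    |∫ x, f x ∂(gibbs (post V s y')) - ∫ x, f x ∂(gibbs (post V s y))| ≤
      L * (1 + s)⁻¹ * ‖y' - y‖ := by
  refine le_of_forall_pos_le_add fun ε hε => ?_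
  obtain ⟨g, cg, lg, hg⟩ := exists_smooth hL hf (half_pos hε)
  have h0 := hV.contr_smooth hs cg hL lg y y'
  have pf : PG f := PG.of_lip (L := L) fun x y => hf x y
  have pg : PG g := PG.of_lip (L := L) fun x y => lg x y
  have cf : Continuous f := by
    have : LipschitzWith (Real.toNNReal L) f := LipschitzWith.of_dist_le_mul fun x y => by
      rw [Real.coe_toNNReal _ hL, Real.dist_eq, dist_eq_norm]
      exact hf x y
    exact this.continuous
  have h1 : ∀ y, |∫ x, g x ∂(gibbs (post V s y)) - ∫ x, f x ∂(gibbs (post V s y))| ≤ ε / 2 := by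
    intro y
    have hA := hV.post_adm hs y
    have := hA.isProb
    rw [← integral_sub (hA.integrable pg cg.continuous.aestronglyMeasurable)
      (hA.integrable pf cf.aestronglyMeasurable), ← Real.norm_eq_abs]
    refine (norm_integral_le_of_norm_le_const (C := ε / 2) (Eventually.of_forall fun x => ?_)).trans
      ?_
    · rw [Real.norm_eq_abs]; exact hg x
    · rw [probReal_univ, mul_one]
  have h2 := h1 y
  have h3 := h1 y'
  rw [abs_le] at h0 h2 h3 ⊢
  constructor <;> linarith [h0.1, h0.2, h2.1, h2.2, h3.1, h3.2]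

end SPot

end Vale.Agent.P347.I3
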