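import Vale.Agent.P347.H473.I1
import Vale.Agent.P347.H941.KDefs

/-! P347, block M3 (helper473), part 2: the ideal proximal chain for strongly convex potentials:
measurability, invariance, regularisation, contraction and moments. -/

open MeasureTheory Filter Module
open scoped ENNReal NNReal ContDiff

namespace Vale.Agent.P347.I3

variable {E : Type*} [NormedAddCommGroup E] [InnerProductSpace ℝ E] [FiniteDimensional ℝ E]
  [MeasurableSpace E] [BorelSpace E]

/-- One step of the ideal proximal sampler. -/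
noncomputable def Pr (V : E → ℝ) (s : ℝ) (f : E → ℝ) (x : E) : ℝ :=
  ∫ z, (∫ u, f u ∂(gibbs (post V s (x + √s • z)))) ∂(gam E)

/-- Bounded measurable functions. -/
structure BM (f : E → ℝ) : Prop where
  meas : Measurable f
  lo : ∀ x, 0 ≤ f x
  hi : ∀ x, f x ≤ 1

theorem BM.abs {f : E → ℝ} (hf : BM f) (x : E) : |f x| ≤ 1 := by
  rw [abs_of_nonneg (hf.lo x)]
  exact hf.hi x

theorem BM.pg {f : E → ℝ} (hf : BM f) : PG f :=
  ⟨1, 0, fun x => by rw [pow_zero, mul_one]; exact hf.abs x⟩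

theorem BM.integrable {f : E → ℝ} (hf : BM f) (μ : Measure E) [IsFiniteMeasure μ] :
    Integrable f μ :=
  Integrable.of_bound hf.meas.aestronglyMeasurable 1 (Eventually.of_forall hf.abs)

theorem BM.integral {f : E → ℝ} (hf : BM f) (μ : Measure E) [IsProbabilityMeasure μ] :
    0 ≤ ∫ x, f x ∂μ ∧ ∫ x, f x ∂μ ≤ 1 := by
  refine ⟨integral_nonneg hf.lo, ?_⟩
  have h1 : ∫ x, f x ∂μ ≤ ∫ _, (1 : ℝ) ∂μ :=
    integral_mono (hf.integrable μ) (integrable_const _) hf.hi
  rwa [integral_const, probReal_univ, one_smul] at h1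

namespace SPot

variable {V : E → ℝ} {G : E → E}

/-- Joint integrability behind the disintegration. -/
theorem joint_integrable_vol (hV : SPot V G) {s : ℝ} (hs : 0 < s) {f : E × E → ℝ}
    (hf : Measurable f) (bf : ∀ q, |f q| ≤ 1) :
    Integrable (fun q : E × E => Real.exp (-post V s q.2 q.1) * f q)
      ((volume : Measure E).prod volume) := by
  have cV := hV.contV
  have i1 := integrable_pow_mul_exp (E := E) (a := 1 / 8) (by norm_num) 1 0 (‖G 0‖ ^ 2 - V 0)
  have i2 := integrable_pow_mul_exp (E := E) (a := 1 / (8 + 2 * s)) (by positivity) 1 0 0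
  refine (i1.mul_prod i2).mono' ?_ (Eventually.of_forall fun q => ?_)
  · have c1 : Continuous fun q : E × E => Real.exp (-post V s q.2 q.1) := by
      unfold post; (clear * - cV; fun_prop)
    exact (c1.measurable.mul hf).aestronglyMeasurable
  · obtain ⟨x, y⟩ := q
    rw [norm_mul, Real.norm_of_nonneg (Real.exp_pos _).le, Real.norm_eq_abs]
    have h1 : |f (x, y)| ≤ 1 := bf (x, y)
    have h2 : Real.exp (-post V s y x) ≤ Real.exp (‖G 0‖ ^ 2 - V 0 - 1 / 8 * ‖x‖ ^ 2)
        * Real.exp (0 - 1 / (8 + 2 * s) * ‖y‖ ^ 2) := by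
      rw [← Real.exp_add]
      refine Real.exp_le_exp.2 ?_
      have h3 := hV.low x
      have h4 : 1 / (8 + 2 * s) * ‖y‖ ^ 2 ≤ ‖x‖ ^ 2 / 8 + ‖x - y‖ ^ 2 / (2 * s) := by
        have h5 : ‖y‖ ≤ ‖x‖ + ‖x - y‖ := by
          calc ‖y‖ = ‖x - (x - y)‖ := by congr 1; abel
            _ ≤ _ := norm_sub_le _ _
        have h6 : ‖y‖ ^ 2 ≤ (‖x‖ + ‖x - y‖) ^ 2 := pow_le_pow_left₀ (norm_nonneg _) h5 2
        have h7 : (‖x‖ + ‖x - y‖) ^ 2 ≤ (‖x‖ ^ 2 / 8 + ‖x - y‖ ^ 2 / (2 * s)) * (8 + 2 * s) := by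
          have h8 : (‖x‖ ^ 2 / 8 + ‖x - y‖ ^ 2 / (2 * s)) * (8 + 2 * s)
              - (‖x‖ + ‖x - y‖) ^ 2 = (s * ‖x‖ - 4 * ‖x - y‖) ^ 2 / (4 * s) := by
            field_simp
            ring
          have h9 : 0 ≤ (s * ‖x‖ - 4 * ‖x - y‖) ^ 2 / (4 * s) := by (clear * - hs; positivity)
          linarith only [h9, h8]
        rw [div_mul_eq_mul_div, one_mul, div_le_iff₀ (by positivity)]
        exact h6.trans h7
      unfold post
      linarith only [h4, h3]
    calc Real.exp (-post V s y x) * |f (x, y)|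
        ≤ (Real.exp (‖G 0‖ ^ 2 - V 0 - 1 / 8 * ‖x‖ ^ 2)
          * Real.exp (0 - 1 / (8 + 2 * s) * ‖y‖ ^ 2)) * 1 := by (clear * - h2 h1; gcongr)
      _ = _ := by simp only [pow_zero, mul_one, one_mul]

/-- Disintegration. -/
theorem joint_law (hV : SPot V G) {s : ℝ} (hs : 0 < s) {f : E × E → ℝ} (hf : Measurable f)
    (bf : ∀ q, |f q| ≤ 1) :
    ∫ y, ∫ x, f (x, y) ∂(gibbs (post V s y)) ∂(gibbs (Wp V s))
      = ∫ x, ∫ z, f (x, x + √s • z) ∂(gam E) ∂(gibbs V) := by
  have hA := fun y => hV.post_adm hs y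
  have hΦ := hV.joint_integrable_vol hs hf bf
  have hK := hV.joint_integrable_vol hs (f := fun _ => 1) measurable_const (by simp)
  simp only [mul_one] at hK
  set c := ∫ y : E, Real.exp (-(‖y‖ ^ 2 / (2 * s))) with hc
  have hci : Integrable (fun y : E => Real.exp (-(‖y‖ ^ 2 / (2 * s)))) := by
    have := integrable_exp_neg_sq (E := E) (b := 1 / (2 * s)) (by positivity)
    refine this.congr (Eventually.of_forall fun x => ?_)
    simp only
    congr 2
    ring
  have hc0 : 0 < c := MeasureTheory.integral_exp_pos hci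
  have hcx : ∀ x : E, ∫ y : E, Real.exp (-(‖y - x‖ ^ 2 / (2 * s))) = c := fun x =>
    integral_sub_right_eq_self (fun y : E => Real.exp (-(‖y‖ ^ 2 / (2 * s)))) x
  have hexpW : ∀ y, Real.exp (-Wp V s y) = ∫ x, Real.exp (-post V s y x) := fun y => by
    unfold Wp
    rw [neg_neg, Real.exp_log (hA y).integral_exp_pos]
  have hLHS : ∫ y, ∫ x, f (x, y) ∂(gibbs (post V s y)) ∂(gibbs (Wp V s))
      = (∫ y, ∫ x, Real.exp (-post V s y x))⁻¹
        * ∫ y, ∫ x, Real.exp (-post V s y x) * f (x, y) := by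
    rw [gibbs_integral]
    simp only [smul_eq_mul]
    congr 1
    · simp_rw [hexpW]
    · refine integral_congr_ae (Eventually.of_forall fun y => ?_)
      simp only
      rw [gibbs_integral, hexpW, smul_eq_mul, ← mul_assoc,
        mul_inv_cancel₀ (hA y).integral_exp_pos.ne', one_mul]
      rfl
  have hpost : ∀ x y, Real.exp (-post V s y x)
      = Real.exp (-V x) * Real.exp (-(‖y - x‖ ^ 2 / (2 * s))) := fun x y => by
    rw [← Real.exp_add]
    unfold post
    rw [norm_sub_rev x y]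
    congr 1
    ring
  have hRHS : ∫ x, ∫ z, f (x, x + √s • z) ∂(gam E) ∂(gibbs V)
      = (∫ x, Real.exp (-V x))⁻¹ * (c⁻¹ * ∫ x, ∫ y, Real.exp (-post V s y x) * f (x, y)) := by
    rw [gibbs_integral]
    simp only [smul_eq_mul]
    congr 1
    rw [← integral_const_mul]
    refine integral_congr_ae (Eventually.of_forall fun x => ?_)
    simp only
    rw [gam_affine hs x (fun y => f (x, y)), gibbs_integral, hcx x, smul_eq_mul,
      mul_left_comm, ← integral_const_mul]
    congr 1
    refine integral_congr_ae (Eventually.of_forall fun y => ?_)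
    simp only [smul_eq_mul]
    rw [hpost x y, mul_assoc]
  have hZ : ∫ y, ∫ x, Real.exp (-post V s y x) = c * ∫ x, Real.exp (-V x) := by
    rw [← integral_integral_swap (f := fun x y => Real.exp (-post V s y x)) hK,
      ← integral_const_mul]
    refine integral_congr_ae (Eventually.of_forall fun x => ?_)
    simp only
    simp_rw [hpost x]
    rw [integral_const_mul, hcx x, mul_comm]
  rw [hLHS, hRHS, hZ, ← integral_integral_swap
    (f := fun x y => Real.exp (-post V s y x) * f (x, y)) hΦ, mul_inv]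
  ring

/-- Posterior expectations are measurable functions of the observation. -/
theorem meas_post (hV : SPot V G) {s : ℝ} (hs : 0 < s) {f : E → ℝ} (hf : BM f) :
    BM (fun y => ∫ u, f u ∂(gibbs (post V s y))) := by
  refine ⟨?_, fun y => ?_, fun y => ?_⟩
  · have cV := hV.contV
    have c1 : Continuous fun q : E × E => Real.exp (-post V s q.1 q.2) := by
      unfold post; (clear * - cV; fun_prop)
    have m1 : StronglyMeasurable fun y => ∫ x, Real.exp (-post V s y x) :=
      c1.measurable.stronglyMeasurable.integral_prod_right'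
    have m2 : StronglyMeasurable fun y => ∫ x, Real.exp (-post V s y x) * f x :=
      (c1.measurable.mul (hf.meas.comp measurable_snd)).stronglyMeasurable.integral_prod_right'
        (f := fun q : E × E => Real.exp (-post V s q.1 q.2) * f q.2)
    have e : (fun y => ∫ u, f u ∂(gibbs (post V s y))) =
        fun y => (∫ x, Real.exp (-post V s y x))⁻¹ * ∫ x, Real.exp (-post V s y x) * f x := by
      funext y
      rw [gibbs_integral]
      rfl
    rw [e]
    exact m1.measurable.inv.mul m2.measurable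
  · have := (hV.post_adm hs y).isProb
    exact (hf.integral _).1
  · have := (hV.post_adm hs y).isProb
    exact (hf.integral _).2

/-- Regularisation: `Pr` maps bounded functions to Lipschitz functions. -/
theorem tv (hV : SPot V G) {s : ℝ} (hs : 0 < s) {f : E → ℝ} (hf : BM f) (x x' : E) :
    |Pr V s f x - Pr V s f x'| ≤ 1 / (2 * √s) * ‖x - x'‖ := by
  have h := hV.meas_post hs hf
  have h1 := S.gam_pinsker hs x x' h.meas fun x => ⟨h.lo x, h.hi x⟩
  rw [one_div, inv_mul_eq_div]
  exact h1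

omit [FiniteDimensional ℝ E] [MeasurableSpace E] [BorelSpace E] in
theorem cont_of_lip {f : E → ℝ} {L : ℝ} (hL : 0 ≤ L) (hf : ∀ x y, |f x - f y| ≤ L * ‖x - y‖) :
    Continuous f := by
  have : LipschitzWith (Real.toNNReal L) f := LipschitzWith.of_dist_le_mul fun x y => by
    rw [Real.coe_toNNReal _ hL, Real.dist_eq, dist_eq_norm]
    exact hf x y
  exact this.continuous

theorem bm (hV : SPot V G) {s : ℝ} (hs : 0 < s) {f : E → ℝ} (hf : BM f) : BM (Pr V s f) := by
  have hs0 : 0 < √s := Real.sqrt_pos.2 hs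
  have h := hV.meas_post hs hf
  have hp : IsProbabilityMeasure (gam E) := adm_gam.isProb
  refine ⟨(cont_of_lip (L := 1 / (2 * √s)) (by positivity) (hV.tv hs hf)).measurable,
    fun x => ?_, fun x => ?_⟩
  · exact integral_nonneg fun z => h.lo _
  · have h1 : ∫ z, (∫ u, f u ∂(gibbs (post V s (x + √s • z)))) ∂(gam E) ≤ ∫ _, (1 : ℝ) ∂(gam E) :=
      integral_mono (Integrable.of_bound (h.meas.comp (by fun_prop)).aestronglyMeasurable 1
        (Eventually.of_forall fun z => h.abs _)) (integrable_const _) fun z => h.hi _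
    rwa [integral_const, probReal_univ, one_smul] at h1

/-- Contraction: `Pr` improves Lipschitz constants by `1 / (1 + s)`. -/
theorem lip (hV : SPot V G) {s : ℝ} (hs : 0 < s) {f : E → ℝ} (hf : BM f) {L : ℝ} (hL : 0 ≤ L)
    (lf : ∀ x y, |f x - f y| ≤ L * ‖x - y‖) (x x' : E) :
    |Pr V s f x - Pr V s f x'| ≤ L * (1 + s)⁻¹ * ‖x - x'‖ := by
  have h := hV.meas_post hs hf
  have hp : IsProbabilityMeasure (gam E) := adm_gam.isProb
  have i : ∀ x : E, Integrable (fun z => ∫ u, f u ∂(gibbs (post V s (x + √s • z)))) (gam E) :=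
    fun x => Integrable.of_bound (h.meas.comp (by fun_prop)).aestronglyMeasurable 1
        (Eventually.of_forall fun z => h.abs _)
  unfold Pr
  rw [← integral_sub (i x) (i x'), ← Real.norm_eq_abs]
  refine (norm_integral_le_of_norm_le_const (C := L * (1 + s)⁻¹ * ‖x - x'‖)
    (Eventually.of_forall fun z => ?_)).trans ?_
  · rw [Real.norm_eq_abs]
    have h1 := hV.contr hs hL lf (x' + √s • z) (x + √s • z)
    rwa [add_sub_add_right_eq_sub] at h1
  · rw [probReal_univ, mul_one]

/-- Invariance. -/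
theorem inv (hV : SPot V G) {s : ℝ} (hs : 0 < s) {f : E → ℝ} (hf : BM f) :
    ∫ x, Pr V s f x ∂(gibbs V) = ∫ x, f x ∂(gibbs V) := by
  have h := hV.meas_post hs hf
  have hp : IsProbabilityMeasure (gam E) := adm_gam.isProb
  have h1 := hV.joint_law hs (f := fun q => ∫ u, f u ∂(gibbs (post V s q.2)))
    (h.meas.comp measurable_snd) fun q => h.abs _
  have h2 := hV.joint_law hs (f := fun q => f q.1) (hf.meas.comp measurable_fst) fun q => hf.abs _
  simp only at h1 h2
  have e1 : ∀ x : E, ∫ _ : E, f x ∂(gam E) = f x := fun x => by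
    rw [integral_const, probReal_univ, one_smul]
  have e2 : ∀ y : E, ∫ _ : E, (∫ u, f u ∂(gibbs (post V s y))) ∂(gibbs (post V s y)) =
      ∫ u, f u ∂(gibbs (post V s y)) := fun y => by
    have := (hV.post_adm hs y).isProb
    rw [integral_const, probReal_univ, one_smul]
  simp_rw [e1] at h2
  simp_rw [e2] at h1
  unfold Pr
  rw [← h1, ← h2]

/-- Iterates. -/
theorem iter (hV : SPot V G) {s : ℝ} (hs : 0 < s) {f : E → ℝ} (hf : BM f) (k : ℕ) :
    BM ((Pr V s)^[k] f) ∧ ∫ x, (Pr V s)^[k] f x ∂(gibbs V) = ∫ x, f x ∂(gibbs V) := by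
  induction k with
  | zero => exact ⟨hf, rfl⟩
  | succ k ih =>
    rw [Function.iterate_succ_apply']
    exact ⟨hV.bm hs ih.1, (hV.inv hs ih.1).trans ih.2⟩

theorem iter_lip (hV : SPot V G) {s : ℝ} (hs : 0 < s) {f : E → ℝ} (hf : BM f) {L : ℝ}
    (hL : 0 ≤ L) (lf : ∀ x y, |f x - f y| ≤ L * ‖x - y‖) (k : ℕ) (x x' : E) :
    |(Pr V s)^[k] f x - (Pr V s)^[k] f x'| ≤ ((1 + s)⁻¹) ^ k * L * ‖x - x'‖ := by
  induction k generalizing x x' with
  | zero => simpa using lf x x'
  | succ k ih =>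
    rw [Function.iterate_succ_apply']
    have h1 := hV.lip hs (hV.iter hs hf k).1 (L := ((1 + s)⁻¹) ^ k * L) (by positivity) ih x x'
    refine h1.trans (le_of_eq ?_)
    ring

/-- Moments. -/
theorem moment (hV : SPot V G) : ∫ x, ‖x‖ ∂(gibbs V) ≤ √(finrank ℝ E : ℝ) + ‖G 0‖ := by
  have hA := hV.adm
  have := hA.isProb
  have cG := hV.cont
  have pG := hV.pg
  set b := stdOrthonormalBasis ℝ E
  have h1 : ∀ i, ∫ x, (inner ℝ x (b i) : ℝ) * inner ℝ (b i) (G x) ∂(gibbs V) = 1 := fun i => by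
    have h2 := gibbs_ibp hA hV.grad cG pG (f := fun x => (inner ℝ x (b i) : ℝ))
      (f' := fun _ => b i) (fun x => by
        have h2 : (fun x : E => (inner ℝ x (b i) : ℝ)) = fun x => innerSL ℝ (b i) x := by
          funext x; rw [innerSL_apply_apply, real_inner_comm]
        rw [h2]
        exact (innerSL ℝ (b i)).hasFDerivAt) continuous_const (PG.id.inner (PG.const _))
      (PG.const _) (b i)
    rw [integral_const, probReal_univ, one_smul, real_inner_self_eq_norm_sq,
      b.orthonormal.1 i, one_pow] at h2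
    rw [h2]
    refine integral_congr_ae (Eventually.of_forall fun x => ?_)
    simp only
    rw [real_inner_comm (G x) (b i)]
  have h3 : ∫ x, (inner ℝ x (G x) : ℝ) ∂(gibbs V) = (finrank ℝ E : ℝ) := by
    have h4 : ∀ x, (inner ℝ x (G x) : ℝ) = ∑ i, (inner ℝ x (b i) : ℝ) * inner ℝ (b i) (G x) :=
      fun x => (b.sum_inner_mul_inner x (G x)).symm
    simp_rw [h4]
    rw [integral_finsetSum]
    · simp_rw [h1]
      simp only [Finset.sum_const, Finset.card_univ, Fintype.card_fin, nsmul_eq_mul, mul_one]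
    · intro i _
      exact hA.integrable ((PG.id.inner (PG.const _)).mul ((PG.const _).inner pG))
        (by (clear pG h1 h4; fun_prop))
  have i1 : Integrable (fun x : E => ‖x‖ ^ 2) (gibbs V) :=
    hA.integrable (PG.id.norm.pow 2) (by (clear cG pG b h1 h3; fun_prop))
  have i2 : Integrable (fun x : E => ‖x‖) (gibbs V) :=
    hA.integrable PG.id.norm (by (clear cG pG b h1 h3; fun_prop))
  have i3 : Integrable (fun x : E => (inner ℝ x (G x) : ℝ)) (gibbs V) :=
    hA.integrable (PG.id.inner pG) (by (clear pG b h1 h3; fun_prop))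
  have h4 : ∫ x, ‖x‖ ^ 2 ∂(gibbs V) ≤ ∫ x, ((inner ℝ x (G x) : ℝ) + ‖G 0‖ * ‖x‖) ∂(gibbs V) :=
    integral_mono i1 (i3.add (i2.const_mul _)) fun x => by
      have h5 := hV.mono x 0
      rw [sub_zero, inner_sub_left, real_inner_comm x (G x)] at h5
      have h6 := (abs_le.1 (abs_real_inner_le_norm (G 0) x)).1
      simp only
      linarith only [h5, h6]
  rw [integral_add i3 (i2.const_mul _), h3, integral_const_mul] at h4
  set m := ∫ x, ‖x‖ ∂(gibbs V) with hm
  have hm0 : 0 ≤ m := integral_nonneg fun x => norm_nonneg x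
  have h5 : m ^ 2 ≤ ∫ x, ‖x‖ ^ 2 ∂(gibbs V) := by
    have := var_nonneg (μ := gibbs V) (f := fun x : E => ‖x‖) i2 i1
    linarith only [this]
  have h6 := h5.trans h4
  have h7 : √(finrank ℝ E : ℝ) ^ 2 = finrank ℝ E := Real.sq_sqrt (Nat.cast_nonneg _)
  have h8 : 0 ≤ √(finrank ℝ E : ℝ) := Real.sqrt_nonneg _
  have h9 := norm_nonneg (G 0)
  by_contra hcon
  rw [not_le] at hcon
  nlinarith [mul_pos (sub_pos.2 hcon) (sub_pos.2 hcon), mul_nonneg h8 h9, mul_nonneg hm0 h9,
    mul_nonneg h8 hm0]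

/-- A Lipschitz function compared with its mean. -/
theorem mean (hV : SPot V G) {f : E → ℝ} {L : ℝ} (hL : 0 ≤ L)
    (lf : ∀ x y, |f x - f y| ≤ L * ‖x - y‖) :
    |f 0 - ∫ x, f x ∂(gibbs V)| ≤ L * (√(finrank ℝ E : ℝ) + ‖G 0‖) := by
  have hA := hV.adm
  have := hA.isProb
  have cf := cont_of_lip hL lf
  have pf : PG f := PG.of_lip (L := L) fun x y => lf x y
  have i1 : Integrable f (gibbs V) := hA.integrable pf cf.aestronglyMeasurable
  have i2 : Integrable (fun x : E => ‖x‖) (gibbs V) :=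
    hA.integrable PG.id.norm continuous_norm.aestronglyMeasurable
  have e : f 0 - ∫ x, f x ∂(gibbs V) = ∫ x, (f 0 - f x) ∂(gibbs V) := by
    rw [integral_sub (integrable_const _) i1, integral_const, probReal_univ, one_smul]
  rw [e, ← Real.norm_eq_abs]
  refine (norm_integral_le_of_norm_le (i2.const_mul L) (Eventually.of_forall fun x => ?_)).trans ?_
  · rw [Real.norm_eq_abs]
    have := lf 0 x
    rwa [zero_sub, norm_neg] at this
  · rw [integral_const_mul]
    exact mul_le_mul_of_nonneg_left hV.moment hL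

/-- Convergence of the ideal chain. -/
theorem conv (hV : SPot V G) {s : ℝ} (hs : 0 < s) {f : E → ℝ} (hf : BM f) (N : ℕ) :
    |(Pr V s)^[N + 1] f 0 - ∫ x, f x ∂(gibbs V)| ≤
      ((1 + s)⁻¹) ^ N * (1 / (2 * √s)) * (√(finrank ℝ E : ℝ) + ‖G 0‖) := by
  have hs0 : 0 < √s := Real.sqrt_pos.2 hs
  rw [Function.iterate_succ_apply, ← hV.inv hs hf, ← (hV.iter hs (hV.bm hs hf) N).2]
  exact hV.mean (by positivity)
    (hV.iter_lip hs (hV.bm hs hf) (by positivity) (hV.tv hs hf) N)

/-- Growth of Lipschitz functions along the chain. -/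
theorem grow (hV : SPot V G) {s : ℝ} (hs : 0 < s) {f : E → ℝ} (hf : BM f) {b : ℝ} (hb : 0 ≤ b)
    (lf : ∀ x y, |f x - f y| ≤ b * ‖x - y‖) (k : ℕ) :
    (Pr V s)^[k] f 0 ≤ f 0 + 2 * b * (√(finrank ℝ E : ℝ) + ‖G 0‖) := by
  have h0 : ((1 + s)⁻¹) ^ k ≤ 1 := by
    have h1 : (1 + s)⁻¹ ≤ 1 := inv_le_one_of_one_le₀ (by linarith)
    exact pow_le_one₀ (by positivity) h1
  have h1 := hV.mean (f := (Pr V s)^[k] f) hb fun x y => by
    refine (hV.iter_lip hs hf hb lf k x y).trans ?_
    have h2 : ((1 + s)⁻¹) ^ k * b ≤ 1 * b := mul_le_mul_of_nonneg_right h0 hb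
    rw [one_mul] at h2
    exact mul_le_mul_of_nonneg_right h2 (norm_nonneg _)
  rw [(hV.iter hs hf k).2] at h1
  have h2 := hV.mean hb lf
  rw [abs_le] at h1 h2
  linarith [h1.1, h1.2, h2.1, h2.2]

end SPot

end Vale.Agent.P347.I3
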