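import Vale.Agent.P347.H473.I2

/-! P347, block M3 (helper473): the ideal proximal sampler for the class `PotR d κ R`. -/

open MeasureTheory Filter Module Set
open scoped ENNReal NNReal

namespace Vale.Agent.P347.I3

/-- The centred Lipschitz bound for the gradient of a potential of the class. -/
theorem lip_center {d : ℕ} {κ R : ℝ} (hκ : 1 ≤ κ) {V : Eu d → ℝ} (hV : V ∈ PotR d κ R)
    (x y : Eu d) :
    ‖gradient V x - gradient V y - ((1 + κ) / 2 : ℝ) • (x - y)‖ ≤ (κ - 1) / 2 * ‖x - y‖ := by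
  obtain ⟨hC, -, hH⟩ := hV
  have h1 : ContDiff ℝ 1 (fderiv ℝ V) := hC.fderiv_right (by norm_num)
  have hgrad : ContDiff ℝ 1 (gradient V) := (rieszL d).contDiff.comp h1
  have hess : ∀ x, HasFDerivAt (gradient V) (fderiv ℝ (gradient V) x) x := fun x =>
    (hgrad.differentiable one_ne_zero x).hasFDerivAt
  have hsymm : ∀ x u v, (inner ℝ (fderiv ℝ (gradient V) x u) v : ℝ) =
      inner ℝ u (fderiv ℝ (gradient V) x v) := fun x u v => by
    rw [inner_fderiv_gradient hC, real_inner_comm, inner_fderiv_gradient hC]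
    exact (hC.contDiffAt.isSymmSndFDerivAt (by simp)).eq u v
  have hn : ∀ w, ‖fderiv ℝ (gradient V) w - ((1 + κ) / 2 : ℝ) •
      ContinuousLinearMap.id ℝ (Eu d)‖ ≤ (κ - 1) / 2 := fun w => by
    refine norm_le_of_quad (by linarith) (fun u v => ?_) fun v => ?_
    · simp only [_root_.sub_apply, _root_.smul_apply,
        ContinuousLinearMap.id_apply, inner_sub_left, inner_sub_right, real_inner_smul_left,
        real_inner_smul_right, hsymm w u v]
    · simp only [_root_.sub_apply, _root_.smul_apply, ContinuousLinearMap.id_apply,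
        inner_sub_left, real_inner_smul_left, real_inner_self_eq_norm_sq]
      rw [inner_fderiv_gradient hC]
      have h2 := hH w v
      rw [abs_le]
      constructor <;> linarith [h2.1, h2.2]
  have h := Convex.norm_image_sub_le_of_norm_hasFDerivWithin_le (𝕜 := ℝ) (s := univ)
    (f := fun w => gradient V w - ((1 + κ) / 2 : ℝ) • w)
    (f' := fun w => fderiv ℝ (gradient V) w - ((1 + κ) / 2 : ℝ) •
      ContinuousLinearMap.id ℝ (Eu d)) (C := (κ - 1) / 2)
    (fun w _ => ((hess w).sub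
      ((hasFDerivAt_id w).const_smul ((1 + κ) / 2 : ℝ))).hasFDerivWithinAt)
    (fun w _ => hn w) convex_univ (mem_univ y) (mem_univ x)
  have h2 : gradient V x - gradient V y - ((1 + κ) / 2 : ℝ) • (x - y) =
      gradient V x - ((1 + κ) / 2 : ℝ) • x - (gradient V y - ((1 + κ) / 2 : ℝ) • y) := by
    module
  rw [h2]
  exact h

/-- The gradient of a potential of the class is `κ`-Lipschitz. -/
theorem lip_grad {d : ℕ} {κ R : ℝ} (hκ : 1 ≤ κ) {V : Eu d → ℝ} (hV : V ∈ PotR d κ R)
    (x y : Eu d) : ‖gradient V x - gradient V y‖ ≤ κ * ‖x - y‖ := by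
  have h1 := lip_center hκ hV x y
  calc ‖gradient V x - gradient V y‖ = ‖(gradient V x - gradient V y -
        ((1 + κ) / 2 : ℝ) • (x - y)) + ((1 + κ) / 2 : ℝ) • (x - y)‖ := by
        congr 1; abel
    _ ≤ ‖gradient V x - gradient V y - ((1 + κ) / 2 : ℝ) • (x - y)‖ +
        ‖((1 + κ) / 2 : ℝ) • (x - y)‖ := norm_add_le _ _
    _ ≤ (κ - 1) / 2 * ‖x - y‖ + (1 + κ) / 2 * ‖x - y‖ := by
        rw [norm_smul, Real.norm_of_nonneg (by linarith)]
        linarith only [h1]
    _ = _ := by ring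

/-- Strong monotonicity. -/
theorem mono_grad {d : ℕ} {κ R : ℝ} (hκ : 1 ≤ κ) {V : Eu d → ℝ} (hV : V ∈ PotR d κ R)
    (x y : Eu d) : ‖x - y‖ ^ 2 ≤ inner ℝ (gradient V x - gradient V y) (x - y) := by
  have h1 := lip_center hκ hV x y
  have h2 : (inner ℝ (gradient V x - gradient V y) (x - y) : ℝ) =
      inner ℝ (gradient V x - gradient V y - ((1 + κ) / 2 : ℝ) • (x - y)) (x - y)
      + (1 + κ) / 2 * ‖x - y‖ ^ 2 := by
    rw [inner_sub_left (gradient V x - gradient V y), real_inner_smul_left,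
      real_inner_self_eq_norm_sq]
    ring
  have h3 := (abs_le.1 (abs_real_inner_le_norm
    (gradient V x - gradient V y - ((1 + κ) / 2 : ℝ) • (x - y)) (x - y))).1
  have h4 := norm_nonneg (x - y)
  have h5 := mul_le_mul_of_nonneg_right h1 h4
  rw [h2]
  nlinarith only [h3, h5]

theorem spot {d : ℕ} {κ R : ℝ} (hκ : 1 ≤ κ) {V : Eu d → ℝ} (hV : V ∈ PotR d κ R) :
    SPot V (gradient V) where
  grad x := (hV.1.differentiable two_ne_zero x).hasGradientAt.hasFDerivAt
  cont := by
    have h1 : ContDiff ℝ 1 (fderiv ℝ V) := hV.1.fderiv_right (by norm_num)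
    have hgrad : ContDiff ℝ 1 (gradient V) := (rieszL d).contDiff.comp h1
    exact hgrad.continuous
  pg := PG.of_lip (lip_grad hκ hV)
  mono := mono_grad hκ hV

theorem pop_eq {d : ℕ} (V : Eu d → ℝ) (κ : ℝ) : K.Pop V κ = Pr V (1 / κ) := rfl

/-- **M3**: the ideal chain. -/
theorem m3 : K.M3 := by
  intro d κ R hd hκ hR V hV
  have hS := spot hκ hV
  have hκ0 : 0 < κ := by linarith
  have hs : 0 < 1 / κ := by positivity
  have hdR : √(finrank ℝ (Eu d) : ℝ) + ‖gradient V 0‖ ≤ √d + R := by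
    have h1 : (finrank ℝ (Eu d) : ℝ) = d := by
      exact_mod_cast finrank_euclideanSpace_fin (𝕜 := ℝ) (n := d)
    rw [h1]
    have := hV.2.1
    linarith
  have hsq : 1 / (2 * √(1 / κ)) = √κ / 2 := by
    rw [Real.sqrt_div zero_le_one, Real.sqrt_one]
    have : 0 < √κ := Real.sqrt_pos.2 hκ0
    field_simp
  refine ⟨hS.adm.isProb, fun y => (hS.post_adm hs y).isProb, fun f hf hf1 => ?_,
    fun N f hf hf1 => ?_, fun k b ψ hb hψ lψ => ?_⟩
  · have hB : BM f := ⟨hf, fun x => (hf1 x).1, fun x => (hf1 x).2⟩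
    have h1 := hS.meas_post hs hB
    have h2 := hS.bm hs hB
    exact ⟨h1.meas, h2.meas, fun x => ⟨h2.lo x, h2.hi x⟩⟩
  · have hB : BM f := ⟨hf, fun x => (hf1 x).1, fun x => (hf1 x).2⟩
    have h1 := hS.conv hs hB N
    rw [hsq] at h1
    rw [pop_eq]
    refine h1.trans (mul_le_mul_of_nonneg_left hdR ?_)
    have : 0 < √κ := Real.sqrt_pos.2 hκ0
    positivity
  · have hB : BM ψ := ⟨(SPot.cont_of_lip hb lψ).measurable, fun x => (hψ x).1,
      fun x => (hψ x).2⟩
    have h1 := hS.grow hs hB hb lψ k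
    rw [pop_eq]
    have h2 : 2 * b * (√(finrank ℝ (Eu d) : ℝ) + ‖gradient V 0‖) ≤ 2 * b * (√d + R) :=
      mul_le_mul_of_nonneg_left hdR (by positivity)
    linarith

end Vale.Agent.P347.I3

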