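import Vale.Agent.P347.H473.Ideal

/-! P347, block M4, part 4b (helper473): gradient descent for the proximal potential, and the
rescaled potential belongs to the class of condition number `2`. -/

open MeasureTheory Filter Module Set
open scoped RealInnerProductSpace

namespace Vale.Agent.P347.I3

/-- One gradient step halves the gradient. -/
theorem gd_step {d : ℕ} {κ R : ℝ} (hκ : 1 ≤ κ) {V : Eu d → ℝ} (hV : V ∈ PotR d κ R)
    (y c : Eu d) :
    ‖K.gradU V κ y (c - (1 / (2 * κ)) • K.gradU V κ y c)‖ ≤ 1 / 2 * ‖K.gradU V κ y c‖ := by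
  have hκ0 : 0 < κ := by linarith
  set g := K.gradU V κ y c with hg
  set x := c - (1 / (2 * κ)) • g with hx
  have hxc : x - c = -((1 / (2 * κ)) • g) := by rw [hx]; abel
  have h1 := lip_center hκ hV x c
  have e : K.gradU V κ y x = (gradient V x - gradient V c - ((1 + κ) / 2 : ℝ) • (x - c)) +
      (1 / 4 - 1 / (4 * κ)) • g := by
    have e1 : K.gradU V κ y x = g + (gradient V x - gradient V c) + κ • (x - c) := by
      rw [hg]
      unfold K.gradU
      module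
    have e2 : (gradient V x - gradient V c - ((1 + κ) / 2 : ℝ) • (x - c)) +
        (1 / 4 - 1 / (4 * κ)) • g = g + (gradient V x - gradient V c) +
        (-((1 + κ) / 2 : ℝ) • (x - c) + (-(3 / 4) - 1 / (4 * κ)) • g) := by
      module
    rw [e1, e2, hxc]
    congr 1
    rw [smul_neg, smul_neg, neg_smul, neg_neg, smul_smul, smul_smul, ← neg_smul, ← add_smul]
    congr 1
    field_simp
    ring
  have h2 : ‖x - c‖ = 1 / (2 * κ) * ‖g‖ := by
    rw [hxc, norm_neg, norm_smul, Real.norm_of_nonneg (by positivity)]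
  rw [h2] at h1
  have h3 : 0 ≤ 1 / 4 - 1 / (4 * κ) := by
    rw [sub_nonneg, div_le_div_iff₀ (by positivity) (by norm_num)]
    linarith
  calc ‖K.gradU V κ y x‖ ≤ (κ - 1) / 2 * (1 / (2 * κ) * ‖g‖) + (1 / 4 - 1 / (4 * κ)) * ‖g‖ := by
        rw [e]
        refine (norm_add_le _ _).trans (add_le_add h1 ?_)
        rw [norm_smul, Real.norm_of_nonneg h3]
    _ = (1 / 2 - 1 / (2 * κ)) * ‖g‖ := by field_simp; ring
    _ ≤ 1 / 2 * ‖g‖ := by
        refine mul_le_mul_of_nonneg_right ?_ (norm_nonneg _)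
        have : 0 ≤ 1 / (2 * κ) := by positivity
        linarith

/-- Gradient descent for the proximal potential. -/
theorem gd_bound {d : ℕ} {κ R : ℝ} (hκ : 1 ≤ κ) {V : Eu d → ℝ} (hV : V ∈ PotR d κ R)
    (y : Eu d) (n : ℕ) :
    ‖K.gradU V κ y (K.gd V κ y n)‖ ≤ (√(1 / 2)) ^ n * (R + κ * ‖y‖) := by
  induction n with
  | zero =>
    have h1 := lip_grad hκ hV y 0
    have h2 := hV.2.1
    have h3 : K.gradU V κ y (K.gd V κ y 0) = (gradient V y - gradient V 0) + gradient V 0 := by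
      unfold K.gradU K.gd
      simp
    rw [h3, pow_zero, one_mul]
    refine (norm_add_le _ _).trans ?_
    rw [sub_zero] at h1
    linarith
  | succ n ih =>
    have h1 := gd_step hκ hV y (K.gd V κ y n)
    have h2 : (1 : ℝ) / 2 ≤ √(1 / 2) := by
      refine Real.le_sqrt_of_sq_le ?_
      norm_num
    calc ‖K.gradU V κ y (K.gd V κ y (n + 1))‖ ≤ 1 / 2 * ‖K.gradU V κ y (K.gd V κ y n)‖ := h1
      _ ≤ √(1 / 2) * ‖K.gradU V κ y (K.gd V κ y n)‖ :=
        mul_le_mul_of_nonneg_right h2 (norm_nonneg _)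
      _ ≤ √(1 / 2) * ((√(1 / 2)) ^ n * (R + κ * ‖y‖)) :=
        mul_le_mul_of_nonneg_left ih (Real.sqrt_nonneg _)
      _ = _ := by ring

theorem sub_contDiff {d : ℕ} (κ : ℝ) {V : Eu d → ℝ} (hC : ContDiff ℝ 2 V) (y c : Eu d) :
    ContDiff ℝ 2 (K.sub V κ y c) := by
  have h1 : ContDiff ℝ 2 (fun u : Eu d => V (c + (√(1 + κ))⁻¹ • u)) := hC.comp (by fun_prop)
  have h2 : ContDiff ℝ 2 (fun u : Eu d => ‖c + (√(1 + κ))⁻¹ • u - y‖ ^ 2) :=
    ContDiff.norm_sq ℝ (by fun_prop)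
  have h3 : ContDiff ℝ 2 (fun u : Eu d => (⟪K.gradU V κ y c, (√(1 + κ))⁻¹ • u⟫ : ℝ)) :=
    ContDiff.inner ℝ contDiff_const (by fun_prop)
  exact (((h1.add (contDiff_const.mul h2)).sub contDiff_const).sub contDiff_const).sub h3

theorem aff_hasFDerivAt {d : ℕ} (l : ℝ) (c u : Eu d) :
    HasFDerivAt (fun u : Eu d => c + l • u) (l • ContinuousLinearMap.id ℝ (Eu d)) u :=
  ((hasFDerivAt_id u).const_smul l).const_add c

theorem sub_hasFDerivAt {d : ℕ} (κ : ℝ) {V : Eu d → ℝ} (hC : ContDiff ℝ 2 V) (y c u : Eu d) :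
    HasFDerivAt (K.sub V κ y c) ((√(1 + κ))⁻¹ • fderiv ℝ V (c + (√(1 + κ))⁻¹ • u) +
      (κ * (√(1 + κ))⁻¹) • innerSL ℝ (c + (√(1 + κ))⁻¹ • u - y) -
      (√(1 + κ))⁻¹ • innerSL ℝ (K.gradU V κ y c)) u := by
  unfold K.sub
  generalize (√(1 + κ))⁻¹ = l
  generalize K.gradU V κ y c = g
  have a1 : HasFDerivAt (fun u : Eu d => V (c + l • u)) ((fderiv ℝ V (c + l • u)).comp
      (l • ContinuousLinearMap.id ℝ (Eu d))) u :=
    ((hC.differentiable two_ne_zero _).hasFDerivAt).comp u (aff_hasFDerivAt l c u)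
  have a2 := ((aff_hasFDerivAt l c u).sub_const y).norm_sq
  have a3 : HasFDerivAt (fun u : Eu d => (⟪g, l • u⟫ : ℝ))
      ((innerSL ℝ g).comp (l • ContinuousLinearMap.id ℝ (Eu d))) u :=
    (innerSL ℝ g).hasFDerivAt.comp u ((hasFDerivAt_id u).const_smul l)
  have a4 := (((a1.add (a2.const_mul (κ / 2))).sub_const (V c)).sub_const
    (κ / 2 * ‖c - y‖ ^ 2)).sub a3
  refine a4.congr_fderiv ?_
  ext v
  simp only [_root_.add_apply, _root_.sub_apply, _root_.smul_apply,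
    ContinuousLinearMap.comp_apply, ContinuousLinearMap.id_apply, innerSL_apply_apply,
    map_smul, smul_eq_mul, nsmul_eq_mul]
  push_cast
  ring

theorem line_hasDerivAt {d : ℕ} (x v : Eu d) : HasDerivAt (fun t : ℝ => x + t • v) v 0 := by
  simpa using ((hasDerivAt_id (0 : ℝ)).smul_const v).const_add x

theorem aff_line {d : ℕ} {F : Eu d → (Eu d →L[ℝ] ℝ)} {F' : Eu d →L[ℝ] Eu d →L[ℝ] ℝ}
    {x c : Eu d} {l : ℝ} (h : HasFDerivAt F F' (c + l • x)) (v : Eu d) :
    HasDerivAt (fun t : ℝ => F (c + l • (x + t • v)) v) (l * F' v v) 0 := by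
  have hl' : HasDerivAt (fun t : ℝ => c + l • (x + t • v)) (l • v) 0 :=
    ((line_hasDerivAt x v).const_smul l).const_add c
  have h' : HasFDerivAt F F' (c + l • (x + (0 : ℝ) • v)) := by
    rw [zero_smul, add_zero]
    exact h
  have h2 : HasDerivAt (fun t : ℝ => F (c + l • (x + t • v))) (F' (l • v)) 0 :=
    h'.comp_hasDerivAt (0 : ℝ) hl'
  have h3 := h2.clm_apply (hasDerivAt_const (0 : ℝ) v)
  refine h3.congr_deriv ?_
  rw [map_zero, add_zero, map_smul, _root_.smul_apply, smul_eq_mul]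

theorem line_apply {d : ℕ} {F : Eu d → (Eu d →L[ℝ] ℝ)} {F' : Eu d →L[ℝ] Eu d →L[ℝ] ℝ}
    {x : Eu d} (h : HasFDerivAt F F' x) (v : Eu d) :
    HasDerivAt (fun t : ℝ => F (x + t • v) v) (F' v v) 0 := by
  have h' : HasFDerivAt F F' (0 + (1 : ℝ) • x) := by
    rw [zero_add, one_smul]
    exact h
  have h2 := aff_line h' v
  simpa only [zero_add, one_smul, one_mul] using h2

theorem inner_line {d : ℕ} (x y c v : Eu d) (l : ℝ) :
    HasDerivAt (fun t : ℝ => (⟪c + l • (x + t • v) - y, v⟫ : ℝ)) (l * ‖v‖ ^ 2) 0 := by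
  have hl' : HasDerivAt (fun t : ℝ => c + l • (x + t • v)) (l • v) 0 :=
    ((line_hasDerivAt x v).const_smul l).const_add c
  have := (hl'.sub_const y).inner ℝ (hasDerivAt_const (0 : ℝ) v)
  rw [inner_zero_right, zero_add, real_inner_smul_left, real_inner_self_eq_norm_sq] at this
  exact this

/-- Abstract form of the second derivative of the rescaled potential. -/
theorem hess_aux {d : ℕ} {F G : Eu d → (Eu d →L[ℝ] ℝ)} {F' G' : Eu d →L[ℝ] Eu d →L[ℝ] ℝ}
    {x y c g : Eu d} {l κ : ℝ} (hF : HasFDerivAt F F' x) (hG : HasFDerivAt G G' (c + l • x))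
    (e : ∀ u v, F u v = l * G (c + l • u) v + (κ * l) * ⟪c + l • u - y, v⟫ - l * ⟪g, v⟫)
    (v : Eu d) : F' v v = l * l * (G' v v + κ * ‖v‖ ^ 2) := by
  have b2 := line_apply hF v
  have b6 := (((aff_line hG v).const_mul l).add
    ((inner_line x y c v l).const_mul (κ * l))).sub_const (l * (⟪g, v⟫ : ℝ))
  have b7 := b2.unique (b6.congr_of_eventuallyEq (Eventually.of_forall fun t => e _ _))
  rw [b7]
  ring

theorem sub_hess {d : ℕ} {κ : ℝ} (hκ1 : 0 < 1 + κ) {V : Eu d → ℝ} (hC : ContDiff ℝ 2 V)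
    (y c x v : Eu d) :
    fderiv ℝ (fderiv ℝ (K.sub V κ y c)) x v v =
      (1 + κ)⁻¹ * (fderiv ℝ (fderiv ℝ V) (c + (√(1 + κ))⁻¹ • x) v v + κ * ‖v‖ ^ 2) := by
  have hl2 : (√(1 + κ))⁻¹ * (√(1 + κ))⁻¹ = (1 + κ)⁻¹ := by
    rw [← mul_inv, Real.mul_self_sqrt hκ1.le]
  have cF : ContDiff ℝ 1 (fderiv ℝ (K.sub V κ y c)) :=
    (sub_contDiff κ hC y c).fderiv_right (by norm_num)
  have cG : ContDiff ℝ 1 (fderiv ℝ V) := hC.fderiv_right (by norm_num)
  have e := hess_aux (y := y) (g := K.gradU V κ y c) (κ := κ)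
    (cF.differentiable one_ne_zero x).hasFDerivAt
    (cG.differentiable one_ne_zero (c + (√(1 + κ))⁻¹ • x)).hasFDerivAt (fun u v => by
      rw [(sub_hasFDerivAt κ hC y c u).fderiv]
      rfl) v
  rw [e, hl2]

/-- The rescaled potential belongs to the class of condition number `2`. -/
theorem sub_mem {d : ℕ} {κ R : ℝ} (hκ : 1 ≤ κ) {V : Eu d → ℝ} (hV : V ∈ PotR d κ R)
    (y c : Eu d) : K.sub V κ y c ∈ PotClass d := by
  obtain ⟨hC, -, hH⟩ := hV
  have hκ1 : 0 < 1 + κ := by linarith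
  refine ⟨sub_contDiff κ hC y c, ?_, ?_, fun x v => ?_⟩
  · unfold K.sub
    simp
  · have h2 : fderiv ℝ (K.sub V κ y c) 0 = 0 := by
      rw [(sub_hasFDerivAt κ hC y c 0).fderiv]
      ext v
      simp only [smul_zero, add_zero, _root_.add_apply, _root_.sub_apply, _root_.smul_apply,
        innerSL_apply_apply, smul_eq_mul, _root_.zero_apply]
      unfold K.gradU
      rw [inner_add_left, real_inner_smul_left, inner_gradient_left]
      ring
    unfold gradient
    rw [h2, map_zero]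
  · rw [sub_hess hκ1 hC]
    have h3 := hH (c + (√(1 + κ))⁻¹ • x) v
    constructor
    · rw [inv_mul_eq_div, le_div_iff₀ hκ1]
      linarith [h3.1]
    · rw [inv_mul_eq_div, div_le_iff₀ hκ1]
      nlinarith [h3.2, sq_nonneg ‖v‖]

end Vale.Agent.P347.I3
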